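import Vale.Agent.P238.Defs
import Vale.Agent.P238.Lower
import Vale.Agent.P238.Upper

open Vale.Agent.P238

theorem Vale.Agent.Results.P238.A_theta.result :
    ∃ c C : ℝ, 0 < c ∧ 0 < C ∧ ∃ N₀ : ℕ, ∀ n ≥ N₀,
      Real.exp (c * Real.sqrt (Real.log n * Real.log (Real.log n))) ≤
        c1 (Fin n → Bool) (fun x y => (ED (List.ofFn x) (List.ofFn y) : ℝ)) ∧
      c1 (Fin n → Bool) (fun x y => (ED (List.ofFn x) (List.ofFn y) : ℝ)) ≤
        Real.exp (C * Real.sqrt (Real.log n * Real.log (Real.log n))) := by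
  obtain ⟨N₁, h₁⟩ := lower_bound
  obtain ⟨N₂, h₂⟩ := Up.upper_bound
  exact ⟨1 / 100, 22, by norm_num, by norm_num, max N₁ N₂, fun n hn =>
    ⟨h₁ n (le_of_max_le_left hn), h₂ n (le_of_max_le_right hn)⟩⟩
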